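import Vale.Agent.P078.Tr.Iter.Step.Defs
import Vale.Agent.P078.Tr.Drift.Alg

/-!
# P078, step: values of the variations at a character
-/

open scoped ComplexOrder InnerProductSpace

noncomputable section

namespace Vale.Agent.P078.Tr.Iter.Expand

open Tracial

universe u

variable {H : Type u} [NormedAddCommGroup H] [InnerProductSpace ℂ H] [CompleteSpace H]
  {S : Tracial H}

/-- The two conjugations of a small self-adjoint change are self-adjoint members of the MASA. -/
theorem sandwich (hB : Basics S) {G b : Op H} (hG : G ∈ S.M) (hGs : IsSelfAdjoint G) (hb : b ∈ S.A)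
    (hbs : IsSelfAdjoint b) :
    (S.E (G * b * G) ∈ S.A ∧ IsSelfAdjoint (S.E (G * b * G))) ∧
      (S.E (G * b * G * b * G) ∈ S.A ∧ IsSelfAdjoint (S.E (G * b * G * b * G))) := by
  have h1 : G * b * G ∈ S.M := mul_mem (mul_mem hG (S.le b hb)) hG
  have h2 : G * b * G * b * G ∈ S.M := mul_mem (mul_mem h1 (S.le b hb)) hG
  have s1 : IsSelfAdjoint (G * b * G) := by
    rw [IsSelfAdjoint, star_mul, star_mul, hGs.star_eq, hbs.star_eq, mul_assoc]
  have s2 : IsSelfAdjoint (G * b * G * b * G) := by
    rw [IsSelfAdjoint, star_mul, star_mul, star_mul, star_mul, hGs.star_eq, hbs.star_eq]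
    simp only [mul_assoc]
  exact ⟨⟨hB.E_mem _ h1, E_isSelfAdjoint hB h1 s1⟩, hB.E_mem _ h2, E_isSelfAdjoint hB h2 s2⟩

theorem evC_real {χ : S.Chi} {x : Op H} (hx : x ∈ S.A) (hs : IsSelfAdjoint x) :
    Dr.ev S χ x = (S.ev χ x : ℂ) := Dr.ev_real χ hx hs

/-- The first and second variations in the values of their ingredients. -/
theorem ev_first_quad (hB : Basics S) (d : Side S) {b : Op H} (χ : S.Chi)
    (he : d.e ∈ S.A) (hes : IsSelfAdjoint d.e) (hG : ∀ σ, d.G σ ∈ S.M)
    (hGs : ∀ σ, IsSelfAdjoint (d.G σ)) (hgi : ∀ σ, d.gi σ ∈ S.A)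
    (hgis : ∀ σ, IsSelfAdjoint (d.gi σ)) (hp : d.p ∈ S.A) (hps : IsSelfAdjoint d.p)
    (hpot : d.pot ∈ S.A) (hpots : IsSelfAdjoint d.pot) (hfz : d.fz ∈ S.A)
    (hfzs : IsSelfAdjoint d.fz) (hb : b ∈ S.A) (hbs : IsSelfAdjoint b) :
    S.ev χ (d.first b) = S.ev χ d.e *
        (-(S.ev χ d.fz * (1 + 2 * kB * S.ev χ d.p) * (S.ev χ d.p * S.ev χ d.p) * S.ev χ b) -
          S.ev χ d.pot *
            ((S.ev χ b - S.ev χ (d.gi false) * S.ev χ (d.gi false) *
                S.ev χ (S.E (d.G false * b * d.G false))) +
              (S.ev χ b - S.ev χ (d.gi true) * S.ev χ (d.gi true) *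
                S.ev χ (S.E (d.G true * b * d.G true))))) ∧
    S.ev χ (d.quad b) = S.ev χ d.e *
        (S.ev χ d.fz *
            (((1 + 2 * kB * S.ev χ d.p) * (S.ev χ d.p * S.ev χ d.p * S.ev χ d.p) +
              kB * (S.ev χ d.p * S.ev χ d.p * S.ev χ d.p * S.ev χ d.p)) *
              (S.ev χ b * S.ev χ b)) -
          S.ev χ d.pot *
            ((S.ev χ (d.gi false) * S.ev χ (d.gi false) *
                S.ev χ (S.E (d.G false * b * d.G false * b * d.G false)) -
              S.ev χ (d.gi false) * S.ev χ (d.gi false) * S.ev χ (d.gi false) *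
                (S.ev χ (S.E (d.G false * b * d.G false)) *
                  S.ev χ (S.E (d.G false * b * d.G false)))) +
            (S.ev χ (d.gi true) * S.ev χ (d.gi true) *
                S.ev χ (S.E (d.G true * b * d.G true * b * d.G true)) -
              S.ev χ (d.gi true) * S.ev χ (d.gi true) * S.ev χ (d.gi true) *
                (S.ev χ (S.E (d.G true * b * d.G true)) *
                  S.ev χ (S.E (d.G true * b * d.G true))))) +
          (1 + 2 * kB * S.ev χ d.p) * (S.ev χ d.p * S.ev χ d.p) *
            (S.ev χ b *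
              ((S.ev χ b - S.ev χ (d.gi false) * S.ev χ (d.gi false) *
                  S.ev χ (S.E (d.G false * b * d.G false))) +
                (S.ev χ b - S.ev χ (d.gi true) * S.ev χ (d.gi true) *
                  S.ev χ (S.E (d.G true * b * d.G true)))))) := by
  have hW := fun σ => (sandwich hB (hG σ) (hGs σ) hb hbs).1
  have hQ := fun σ => (sandwich hB (hG σ) (hGs σ) hb hbs).2
  constructor
  · refine (congrArg Complex.re (?_ : Dr.ev S χ (d.first b) = ((_ : ℝ) : ℂ))).trans
      (Complex.ofReal_re _)
    simp (disch := (repeat' (first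
        | assumption
        | apply hgi
        | exact (hW _).1
        | apply add_mem
        | apply sub_mem
        | apply neg_mem
        | apply mul_mem
        | apply Dr.smul_memA
        | exact one_mem _))) only
      [Side.first, Side.L, Side.pot', Dr.ev_mul, Dr.ev_add, Dr.ev_sub, Dr.ev_neg, Dr.ev_smul,
        Dr.ev_one]
    simp only [evC_real he hes, evC_real hfz hfzs, evC_real hp hps, evC_real hpot hpots,
      evC_real hb hbs, evC_real (hgi _) (hgis _), evC_real (hW _).1 (hW _).2]
    push_cast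
    ring
  · refine (congrArg Complex.re (?_ : Dr.ev S χ (d.quad b) = ((_ : ℝ) : ℂ))).trans
      (Complex.ofReal_re _)
    simp (disch := (repeat' (first
        | assumption
        | apply hgi
        | exact (hW _).1
        | exact (hQ _).1
        | apply add_mem
        | apply sub_mem
        | apply neg_mem
        | apply mul_mem
        | apply Dr.smul_memA
        | exact one_mem _))) only
      [Side.quad, Side.xiQuad, Side.L, Side.pot', Dr.ev_mul, Dr.ev_add, Dr.ev_sub,
        Dr.ev_smul, Dr.ev_one]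
    simp only [evC_real he hes, evC_real hfz hfzs, evC_real hp hps, evC_real hpot hpots,
      evC_real hb hbs, evC_real (hgi _) (hgis _), evC_real (hW _).1 (hW _).2,
      evC_real (hQ _).1 (hQ _).2]
    push_cast
    ring

end Vale.Agent.P078.Tr.Iter.Expand
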