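import Mathlib

/-!
# P078, step: third order remainders in numbers
-/

noncomputable section

namespace Vale.Agent.P078.Tr.Iter.Expand

/-- The change of one Schur term when the weight moves by `t` and the resolvent mean from `G` to
`G - w₁ + w₂ - r₃`. -/
theorem num_xi {M n t G G' w1 w2 r3 : ℝ} (hM : 1 ≤ M) (hn : 0 ≤ n) (hn1 : n ≤ 1) (ht : |t| ≤ n)
    (hG : 0 < G) (hGi : G⁻¹ ≤ M) (hG' : 0 < G') (hGi' : G'⁻¹ ≤ M) (hw1 : |w1| ≤ M ^ 2 * n)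
    (hw2 : |w2| ≤ M ^ 3 * n ^ 2) (hr : |r3| ≤ M ^ 4 * n ^ 3) (he : G' = G - w1 + w2 - r3) :
    |t - (G'⁻¹ - G⁻¹)| ≤ 40 * M ^ 16 * n ∧
      |t - (G'⁻¹ - G⁻¹) - (t - G⁻¹ * G⁻¹ * w1)| ≤ 38 * M ^ 16 * n ^ 2 ∧
      |t - (G'⁻¹ - G⁻¹) - (t - G⁻¹ * G⁻¹ * w1) -
          (G⁻¹ * G⁻¹ * w2 - G⁻¹ * G⁻¹ * G⁻¹ * (w1 * w1))| ≤ 36 * M ^ 16 * n ^ 3 := by
  set u := G⁻¹ with hu
  set u' := G'⁻¹ with hu'
  have hu0 : 0 ≤ u := inv_nonneg.2 hG.le
  have hu0' : 0 ≤ u' := inv_nonneg.2 hG'.le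
  set δ := G' - G with hδ
  have hM0 : 0 ≤ M := zero_le_one.trans hM
  have hp : ∀ {i j : ℕ}, i ≤ j → M ^ i ≤ M ^ j := fun h => pow_le_pow_right₀ hM h
  have hn2 : n ^ 2 ≤ n := by nlinarith
  have hn3 : n ^ 3 ≤ n ^ 2 := pow_le_pow_of_le_one hn hn1 (by norm_num)
  have eX : t - (u' - u) = t + u ^ 2 * δ - u ^ 3 * δ ^ 2 + u ^ 3 * u' * δ ^ 3 := by
    rw [hu, hu', hδ]; field_simp; ring
  have d1 : |δ + w1| ≤ 2 * M ^ 4 * n ^ 2 := by
    rw [show δ + w1 = w2 - r3 by rw [hδ, he]; ring]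
    refine (abs_sub _ _).trans ((add_le_add hw2 hr).trans ?_)
    have a1 : M ^ 3 * n ^ 2 ≤ M ^ 4 * n ^ 2 :=
      mul_le_mul_of_nonneg_right (hp (by norm_num)) (sq_nonneg n)
    have a2 : M ^ 4 * n ^ 3 ≤ M ^ 4 * n ^ 2 := mul_le_mul_of_nonneg_left hn3 (by positivity)
    linarith
  have d0 : |δ| ≤ 3 * M ^ 4 * n := by
    rw [show δ = (δ + w1) - w1 by ring]
    refine (abs_sub _ _).trans ((add_le_add d1 hw1).trans ?_)
    have a1 : M ^ 2 * n ≤ M ^ 4 * n := mul_le_mul_of_nonneg_right (hp (by norm_num)) hn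
    have a2 : M ^ 4 * n ^ 2 ≤ M ^ 4 * n := mul_le_mul_of_nonneg_left hn2 (by positivity)
    linarith
  have hu2 : u ^ 2 ≤ M ^ 2 := pow_le_pow_left₀ hu0 hGi 2
  have hu3 : u ^ 3 ≤ M ^ 3 := pow_le_pow_left₀ hu0 hGi 3
  have b1 : |u ^ 2 * w1| ≤ M ^ 16 * n := by
    rw [abs_mul, abs_of_nonneg (sq_nonneg u)]
    calc u ^ 2 * |w1| ≤ M ^ 2 * (M ^ 2 * n) := mul_le_mul hu2 hw1 (abs_nonneg _) (by positivity)
      _ = M ^ 4 * n := by ring
      _ ≤ M ^ 16 * n := mul_le_mul_of_nonneg_right (hp (by norm_num)) hn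
  have b2 : |u ^ 2 * w2 - u ^ 3 * (w1 * w1)| ≤ 2 * M ^ 16 * n ^ 2 := by
    refine (abs_sub _ _).trans ?_
    rw [abs_mul, abs_mul, abs_mul, abs_of_nonneg (sq_nonneg u),
      abs_of_nonneg (pow_nonneg hu0 3)]
    have a1 : u ^ 2 * |w2| ≤ M ^ 16 * n ^ 2 :=
      calc u ^ 2 * |w2| ≤ M ^ 2 * (M ^ 3 * n ^ 2) :=
            mul_le_mul hu2 hw2 (abs_nonneg _) (by positivity)
        _ = M ^ 5 * n ^ 2 := by ring
        _ ≤ M ^ 16 * n ^ 2 := mul_le_mul_of_nonneg_right (hp (by norm_num)) (sq_nonneg n)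
    have a2 : u ^ 3 * (|w1| * |w1|) ≤ M ^ 16 * n ^ 2 :=
      calc u ^ 3 * (|w1| * |w1|) ≤ M ^ 3 * ((M ^ 2 * n) * (M ^ 2 * n)) :=
            mul_le_mul hu3 (mul_le_mul hw1 hw1 (abs_nonneg _) (by positivity))
              (mul_nonneg (abs_nonneg _) (abs_nonneg _)) (by positivity)
        _ = M ^ 7 * n ^ 2 := by ring
        _ ≤ M ^ 16 * n ^ 2 := mul_le_mul_of_nonneg_right (hp (by norm_num)) (sq_nonneg n)
    linarith
  have b3 : |-(u ^ 2 * r3) - u ^ 3 * ((δ + w1) * (δ - w1)) + u ^ 3 * u' * δ ^ 3| ≤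
      36 * M ^ 16 * n ^ 3 := by
    refine (abs_add_le _ _).trans ((add_le_add (abs_sub _ _) le_rfl).trans ?_)
    rw [abs_neg, abs_mul, abs_mul, abs_mul, abs_mul, abs_mul, abs_pow δ,
      abs_of_nonneg (sq_nonneg u), abs_of_nonneg (pow_nonneg hu0 3), abs_of_nonneg hu0']
    have hn3' : 0 ≤ n ^ 3 := pow_nonneg hn 3
    have a1 : u ^ 2 * |r3| ≤ M ^ 16 * n ^ 3 :=
      calc u ^ 2 * |r3| ≤ M ^ 2 * (M ^ 4 * n ^ 3) :=
            mul_le_mul hu2 hr (abs_nonneg _) (by positivity)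
        _ = M ^ 6 * n ^ 3 := by ring
        _ ≤ M ^ 16 * n ^ 3 := mul_le_mul_of_nonneg_right (hp (by norm_num)) hn3'
    have dm : |δ - w1| ≤ 4 * M ^ 4 * n := by
      refine (abs_sub _ _).trans ((add_le_add d0 hw1).trans ?_)
      have : M ^ 2 * n ≤ M ^ 4 * n := mul_le_mul_of_nonneg_right (hp (by norm_num)) hn
      linarith
    have a2 : u ^ 3 * (|δ + w1| * |δ - w1|) ≤ 8 * (M ^ 16 * n ^ 3) :=
      calc u ^ 3 * (|δ + w1| * |δ - w1|) ≤ M ^ 3 * ((2 * M ^ 4 * n ^ 2) * (4 * M ^ 4 * n)) :=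
            mul_le_mul hu3 (mul_le_mul d1 dm (abs_nonneg _) (by positivity))
              (mul_nonneg (abs_nonneg _) (abs_nonneg _)) (by positivity)
        _ = 8 * (M ^ 11 * n ^ 3) := by ring
        _ ≤ 8 * (M ^ 16 * n ^ 3) := mul_le_mul_of_nonneg_left
            (mul_le_mul_of_nonneg_right (hp (by norm_num)) hn3') (by norm_num)
    have a3 : u ^ 3 * u' * |δ| ^ 3 ≤ 27 * (M ^ 16 * n ^ 3) :=
      calc u ^ 3 * u' * |δ| ^ 3 ≤ M ^ 3 * M * (3 * M ^ 4 * n) ^ 3 :=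
            mul_le_mul (mul_le_mul hu3 hGi' hu0' (by positivity))
              (pow_le_pow_left₀ (abs_nonneg _) d0 3) (by positivity) (by positivity)
        _ = 27 * (M ^ 16 * n ^ 3) := by ring
    linarith
  have e3 : t - (u' - u) - (t - u * u * w1) - (u * u * w2 - u * u * u * (w1 * w1)) =
      -(u ^ 2 * r3) - u ^ 3 * ((δ + w1) * (δ - w1)) + u ^ 3 * u' * δ ^ 3 := by
    rw [eX, show w2 = δ + w1 + r3 by rw [hδ, he]; ring]; ring
  have h3 := b3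
  rw [← e3] at h3
  have h2 : |t - (u' - u) - (t - u * u * w1)| ≤ 38 * M ^ 16 * n ^ 2 := by
    rw [show t - (u' - u) - (t - u * u * w1) =
      (t - (u' - u) - (t - u * u * w1) - (u * u * w2 - u * u * u * (w1 * w1))) +
        (u ^ 2 * w2 - u ^ 3 * (w1 * w1)) by ring]
    refine (abs_add_le _ _).trans ((add_le_add h3 b2).trans ?_)
    have : M ^ 16 * n ^ 3 ≤ M ^ 16 * n ^ 2 := mul_le_mul_of_nonneg_left hn3 (by positivity)
    linarith
  refine ⟨?_, h2, h3⟩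
  rw [show t - (u' - u) = (t - (u' - u) - (t - u * u * w1)) + (t - u ^ 2 * w1) by ring]
  refine (abs_add_le _ _).trans ((add_le_add h2 ((abs_sub _ _).trans (add_le_add ht b1))).trans ?_)
  have a1 : M ^ 16 * n ^ 2 ≤ M ^ 16 * n := mul_le_mul_of_nonneg_left hn2 (by positivity)
  have a2 : 1 * n ≤ M ^ 16 * n := mul_le_mul_of_nonneg_right (one_le_pow₀ hM) hn
  linarith

/-- The change of the potential when the weight moves by `t`. -/
theorem num_pot {n t A : ℝ} (hn : 0 ≤ n) (hn1 : n ≤ 1) (ht : |t| ≤ n) (hA : 500 ≤ A) :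
    |(1 + 2 * 204 * A⁻¹) * (A⁻¹ * A⁻¹) * t| ≤ n ∧
      |((A + t)⁻¹ + 204 * ((A + t)⁻¹ * (A + t)⁻¹)) - (A⁻¹ + 204 * (A⁻¹ * A⁻¹)) -
          -((1 + 2 * 204 * A⁻¹) * (A⁻¹ * A⁻¹) * t)| ≤ n ^ 2 ∧
      |((A + t)⁻¹ + 204 * ((A + t)⁻¹ * (A + t)⁻¹)) - (A⁻¹ + 204 * (A⁻¹ * A⁻¹)) -
          -((1 + 2 * 204 * A⁻¹) * (A⁻¹ * A⁻¹) * t) -
          ((1 + 2 * 204 * A⁻¹) * (A⁻¹ * A⁻¹ * A⁻¹) + 204 * (A⁻¹ * A⁻¹ * A⁻¹ * A⁻¹)) * (t * t)| ≤
        n ^ 3 := by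
  obtain ⟨ht1, ht2⟩ := abs_le.1 ht
  have hA' : 499 ≤ A + t := by linarith
  set p := A⁻¹ with hp
  set q := (A + t)⁻¹ with hq
  have hp0 : 0 ≤ p := inv_nonneg.2 (by linarith)
  have hq0 : 0 ≤ q := inv_nonneg.2 (by linarith)
  have hp1 : p ≤ 1 / 500 := by rw [hp, one_div]; exact inv_anti₀ (by norm_num) hA
  have hq1 : q ≤ 1 / 499 := by rw [hq, one_div]; exact inv_anti₀ (by norm_num) hA'
  set k := 1 + 2 * 204 * p with hk
  have hk0 : 0 ≤ k := by positivity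
  have hk1 : k ≤ 2 := by rw [hk]; linarith
  have eq1 : q - p = -(p * q * t) := by
    rw [hp, hq]
    have : A ≠ 0 := by linarith
    have : A + t ≠ 0 := by linarith
    field_simp
    ring
  have e2 : (q + 204 * (q * q)) - (p + 204 * (p * p)) - -(k * (p * p) * t) =
      (k * (p * p * q) + 204 * (p * q * (p * q))) * (t * t) := by
    linear_combination (k + 204 * (q - p) - k * p * t - 204 * (p * q * t)) * eq1
  have e3 : (q + 204 * (q * q)) - (p + 204 * (p * p)) - -(k * (p * p) * t) -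
      (k * (p * p * p) + 204 * (p * p * p * p)) * (t * t) =
      -((k * p * p + 204 * (p * p) * (q + p)) * (p * q)) * (t * t * t) := by
    rw [e2]
    linear_combination (k * (p * p) + 204 * (p * p) * (q + p)) * (t * t) * eq1
  have hpp : p * p ≤ 1 / 250000 := by
    calc p * p ≤ (1 / 500) * (1 / 500) := mul_le_mul hp1 hp1 hp0 (by norm_num)
      _ = 1 / 250000 := by norm_num
  have hpq : p * q ≤ 1 / 249500 := by
    calc p * q ≤ (1 / 500) * (1 / 499) := mul_le_mul hp1 hq1 hq0 (by norm_num)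
      _ = 1 / 249500 := by norm_num
  have htt : |t * t| ≤ n ^ 2 := by
    rw [abs_mul, sq]; exact mul_le_mul ht ht (abs_nonneg _) hn
  have httt : |t * t * t| ≤ n ^ 3 := by
    rw [abs_mul, pow_succ]; exact mul_le_mul htt ht (abs_nonneg _) (sq_nonneg n)
  refine ⟨?_, ?_, ?_⟩
  · rw [abs_mul, abs_of_nonneg (by positivity)]
    calc k * (p * p) * |t| ≤ 2 * (1 / 250000) * n :=
          mul_le_mul (mul_le_mul hk1 hpp (by positivity) (by norm_num)) ht (abs_nonneg _)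
            (by norm_num)
      _ ≤ n := by linarith
  · rw [e2, abs_mul, abs_of_nonneg (by positivity)]
    refine le_trans (mul_le_of_le_one_left (abs_nonneg _) ?_) htt
    have a1 : k * (p * p * q) ≤ 2 * (1 / 250000 * (1 / 499)) :=
      mul_le_mul hk1 (mul_le_mul hpp hq1 hq0 (by norm_num)) (by positivity) (by norm_num)
    have a2 : p * q * (p * q) ≤ 1 / 249500 * (1 / 249500) :=
      mul_le_mul hpq hpq (by positivity) (by norm_num)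
    linarith
  · rw [e3, abs_mul, abs_neg, abs_of_nonneg (by positivity)]
    refine le_trans (mul_le_of_le_one_left (abs_nonneg _) ?_) httt
    have a1 : k * p * p ≤ 2 * (1 / 250000) := by
      rw [mul_assoc]; exact mul_le_mul hk1 hpp (by positivity) (by norm_num)
    have a2 : p * p * (q + p) ≤ 1 / 250000 * (1 / 499 + 1 / 500) :=
      mul_le_mul hpp (add_le_add hq1 hp1) (by positivity) (by norm_num)
    exact mul_le_one₀ (by linarith) (by positivity) (by linarith)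

/-- The product rule up to third order. -/
theorem num_prod {M n F P dP P1 P2 X0 X1 L0 L1 Q0 Q1 : ℝ} (hM : 1 ≤ M) (hn : 0 ≤ n)
    (hF : |F| ≤ 2) (hP : |P| ≤ 1) (p1 : |P1| ≤ n) (p2 : |dP - P1| ≤ n ^ 2)
    (p3 : |dP - P1 - P2| ≤ n ^ 3)
    (hx0 : |X0| ≤ 40 * M ^ 16 * n ∧ |X0 - L0| ≤ 38 * M ^ 16 * n ^ 2 ∧
      |X0 - L0 - Q0| ≤ 36 * M ^ 16 * n ^ 3)
    (hx1 : |X1| ≤ 40 * M ^ 16 * n ∧ |X1 - L1| ≤ 38 * M ^ 16 * n ^ 2 ∧
      |X1 - L1 - Q1| ≤ 36 * M ^ 16 * n ^ 3) :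
    |(P + dP) * (F - (X0 + X1)) - P * F - (F * P1 - P * (L0 + L1)) -
        (F * P2 - P * (Q0 + Q1) - P1 * (L0 + L1))| ≤ 232 * M ^ 16 * n ^ 3 := by
  rw [show (P + dP) * (F - (X0 + X1)) - P * F - (F * P1 - P * (L0 + L1)) -
      (F * P2 - P * (Q0 + Q1) - P1 * (L0 + L1)) =
      F * (dP - P1 - P2) - P * ((X0 - L0 - Q0) + (X1 - L1 - Q1)) -
        ((dP - P1) * (X0 + X1) + P1 * ((X0 - L0) + (X1 - L1))) by ring]
  refine (abs_sub _ _).trans ((add_le_add (abs_sub _ _) (abs_add_le _ _)).trans ?_)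
  simp only [abs_mul]
  have hn3 : 0 ≤ n ^ 3 := pow_nonneg hn 3
  have a1 : |F| * |dP - P1 - P2| ≤ 2 * n ^ 3 :=
    mul_le_mul hF p3 (abs_nonneg _) (by norm_num)
  have a2 : |P| * |X0 - L0 - Q0 + (X1 - L1 - Q1)| ≤ 1 * (72 * M ^ 16 * n ^ 3) :=
    mul_le_mul hP ((abs_add_le _ _).trans (by linarith [hx0.2.2, hx1.2.2])) (abs_nonneg _)
      (by norm_num)
  have a3 : |dP - P1| * |X0 + X1| ≤ n ^ 2 * (80 * M ^ 16 * n) :=
    mul_le_mul p2 ((abs_add_le _ _).trans (by linarith [hx0.1, hx1.1])) (abs_nonneg _)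
      (sq_nonneg n)
  have a4 : |P1| * |X0 - L0 + (X1 - L1)| ≤ n * (76 * M ^ 16 * n ^ 2) :=
    mul_le_mul p1 ((abs_add_le _ _).trans (by linarith [hx0.2.1, hx1.2.1])) (abs_nonneg _) hn
  have a5 : 1 * n ^ 3 ≤ M ^ 16 * n ^ 3 := mul_le_mul_of_nonneg_right (one_le_pow₀ hM) hn3
  linarith

end Vale.Agent.P078.Tr.Iter.Expand
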